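import Vale.Agent.P104.Assembly
import Vale.Agent.P104.Similarity.Step1
import Vale.Agent.P104.Cond.Step
import Vale.Agent.P104.Distance.Main
import Vale.Agent.P104.Discrete.Centre
import Vale.Agent.P104.Discrete.Bound
import Vale.Agent.P104.Continuous.Main
import Vale.Agent.P104.Core.Limit
import Vale.Agent.P104.Core.Twirl
import Vale.Agent.P104.Realise.Main

/-!
The distance to the commutant is bounded by the commutator on the unit ball.
-/

namespace Vale.Agent.P096

open Vale.Agent.P104

universe u

theorem distanceBound : DistanceBound.{u} :=
  step3 (matBound_of centreAverage Continuous.splitExists discreteBound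
    Continuous.continuousScalarising
    (Realise.step5 (Core.coreBound_of (Core.resCommBound Core.cornerBound Core.twirlBound)
      Core.limitBound)))

end Vale.Agent.P096
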