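import Mathlib

/-!
Vocabulary of the statement.
-/

namespace Vale.Agent.P096

open scoped InnerProductSpace

universe u

variable {H : Type u} [NormedAddCommGroup H] [InnerProductSpace ℂ H] [CompleteSpace H]

/-- The operator norm distance. -/
noncomputable def opDist (x y : H →L[ℂ] H) : ℝ := ‖x - y‖

/-- The operator norm. -/
noncomputable def opSize (x : H →L[ℂ] H) : ℝ := ‖x‖

/-- An isometry of `H` onto itself. -/
def IsUnitaryOp (u : H →L[ℂ] H) : Prop := (∀ h, ‖u h‖ = ‖h‖) ∧ Function.Surjective u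

/-- `y` is carried to `x` by `u`. -/
def Intertwines (u x y : H →L[ℂ] H) : Prop := ∀ h, y (u h) = u (x h)

/-- `z` is `c • x + y`. -/
def IsLinComb (c : ℂ) (x y z : H →L[ℂ] H) : Prop := ∀ h, z h = c • x h + y h

/-- `z` is the product of `x` and `y`. -/
def IsProd (x y z : H →L[ℂ] H) : Prop := ∀ h, z h = x (y h)

/-- `y` is the adjoint of `x`. -/
def IsAdjOp (x y : H →L[ℂ] H) : Prop := ∀ h k, ⟪x h, k⟫_ℂ = ⟪h, y k⟫_ℂ

/-- `θ` fixes the identity. -/
def RespUnit (θ : (H →L[ℂ] H) → (H →L[ℂ] H)) : Prop :=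
  ∀ h, θ (ContinuousLinearMap.id ℂ H) h = h

/-- `θ` is linear on `M`. -/
def RespLin (M : VonNeumannAlgebra H) (θ : (H →L[ℂ] H) → (H →L[ℂ] H)) : Prop :=
  ∀ x ∈ M, ∀ y ∈ M, ∀ z ∈ M, ∀ c : ℂ, IsLinComb c x y z → IsLinComb c (θ x) (θ y) (θ z)

/-- `θ` is multiplicative on `M`. -/
def RespProd (M : VonNeumannAlgebra H) (θ : (H →L[ℂ] H) → (H →L[ℂ] H)) : Prop :=
  ∀ x ∈ M, ∀ y ∈ M, ∀ z ∈ M, IsProd x y z → IsProd (θ x) (θ y) (θ z)

/-- `θ` preserves adjoints on `M`. -/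
def RespAdj (M : VonNeumannAlgebra H) (θ : (H →L[ℂ] H) → (H →L[ℂ] H)) : Prop :=
  ∀ x ∈ M, ∀ y ∈ M, IsAdjOp x y → IsAdjOp (θ x) (θ y)

/-- `θ` is unital, linear, multiplicative and adjoint preserving on `M`. -/
def IsRep (M : VonNeumannAlgebra H) (θ : (H →L[ℂ] H) → (H →L[ℂ] H)) : Prop :=
  RespUnit θ ∧ RespLin M θ ∧ RespProd M θ ∧ RespAdj M θ

/-- `θ` moves each element of `M` by at most `γ` times its norm. -/
def NearOn (M : VonNeumannAlgebra H) (θ : (H →L[ℂ] H) → (H →L[ℂ] H)) (γ : ℝ) : Prop :=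
  ∀ x ∈ M, opDist (θ x) x ≤ γ * opSize x

/-- A representation of `M` onto `N` near the inclusion. -/
def NearIso (M N : VonNeumannAlgebra H) (γ : ℝ) : Prop :=
  ∃ θ : (H →L[ℂ] H) → (H →L[ℂ] H), IsRep M θ ∧ NearOn M θ γ ∧
    (∀ x ∈ M, θ x ∈ N) ∧ ∀ y ∈ N, ∃ x ∈ M, θ x = y

/-- A unitary within `γ` of the identity conjugates `M` onto `N`. -/
def NearConj (M N : VonNeumannAlgebra H) (γ : ℝ) : Prop :=
  ∃ u : H →L[ℂ] H, IsUnitaryOp u ∧ opDist u (ContinuousLinearMap.id ℂ H) ≤ γ ∧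
    (∀ x ∈ M, ∃ y ∈ N, Intertwines u x y) ∧ ∀ y ∈ N, ∃ x ∈ M, Intertwines u x y

/-- Every element of norm at most one of `S` is within `γ` of an element of `T`. -/
def NearIncl (S T : Set (H →L[ℂ] H)) (γ : ℝ) : Prop :=
  ∀ x ∈ S, opSize x ≤ 1 → ∃ y ∈ T, opDist x y ≤ γ

/-- A matrix of operators is a contraction on tuples of vectors, up to the factor `c`. -/
def MatBdd {n : ℕ} (X : Fin n → Fin n → (H →L[ℂ] H)) (c : ℝ) : Prop :=
  ∀ η : Fin n → H, ∑ i, ‖∑ j, X i j (η j)‖ ^ 2 ≤ c * ∑ j, ‖η j‖ ^ 2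

/-- The same for matrices of every size. -/
def MatNearIncl (S T : Set (H →L[ℂ] H)) (γ : ℝ) : Prop :=
  ∀ (n : ℕ) (X : Fin n → Fin n → (H →L[ℂ] H)), (∀ i j, X i j ∈ S) → MatBdd X 1 →
    ∃ Y : Fin n → Fin n → (H →L[ℂ] H), (∀ i j, Y i j ∈ T) ∧
      MatBdd (fun i j => X i j - Y i j) (γ ^ 2)

/-- A unitary within `δ` of the identity carries each element of `M` to its image under `θ`. -/
def Implemented (M : VonNeumannAlgebra H) (θ : (H →L[ℂ] H) → (H →L[ℂ] H)) (δ : ℝ) : Prop :=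
  ∃ u : H →L[ℂ] H, IsUnitaryOp u ∧ opDist u (ContinuousLinearMap.id ℂ H) ≤ δ ∧
    ∀ x ∈ M, Intertwines u x (θ x)

/-- The representation statement with constant `C`. -/
def RepRigid (C γ : ℝ) (H : Type u) [NormedAddCommGroup H] [InnerProductSpace ℂ H]
    [CompleteSpace H] : Prop :=
  ∀ (M : VonNeumannAlgebra H) (θ : (H →L[ℂ] H) → (H →L[ℂ] H)), C * γ < 1 → IsRep M θ →
    NearOn M θ γ → Implemented M θ (C * γ)

/-- The elements commuting with every element of `S`. -/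
def commutantSet (S : Set (H →L[ℂ] H)) : Set (H →L[ℂ] H) :=
  {a | ∀ x ∈ S, ∀ h, x (a h) = a (x h)}

/-- Commutants of nearly included algebras are nearly included. -/
def CommutantNear (C γ : ℝ) (H : Type u) [NormedAddCommGroup H] [InnerProductSpace ℂ H]
    [CompleteSpace H] : Prop :=
  ∀ M N : VonNeumannAlgebra H, NearIncl (M : Set (H →L[ℂ] H)) N γ →
    NearIncl (commutantSet (N : Set (H →L[ℂ] H))) (commutantSet (M : Set (H →L[ℂ] H))) (C * γ)

/-- Nearly included algebras are completely nearly included. -/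
def CompleteNear (C γ : ℝ) (H : Type u) [NormedAddCommGroup H] [InnerProductSpace ℂ H]
    [CompleteSpace H] : Prop :=
  ∀ M N : VonNeumannAlgebra H, NearIncl (M : Set (H →L[ℂ] H)) N γ →
    MatNearIncl (M : Set (H →L[ℂ] H)) N (C * γ)

/-- Near isomorphisms and near conjugacies are interchangeable. -/
def IsoConj (C γ : ℝ) (H : Type u) [NormedAddCommGroup H] [InnerProductSpace ℂ H]
    [CompleteSpace H] : Prop :=
  ∀ M N : VonNeumannAlgebra H, C * γ < 1 →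
    (NearIso M N γ → NearConj M N (C * γ)) ∧ (NearConj M N γ → NearIso M N (2 * γ))

end Vale.Agent.P096
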