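import Vale.Agent.P096.Rep
import Vale.Agent.P096.Defs

/-!
From the vocabulary of the statement to star homomorphisms.
-/

namespace Vale.Agent.P096

open scoped InnerProductSpace

universe u

variable {H : Type u} [NormedAddCommGroup H] [InnerProductSpace ℂ H] [CompleteSpace H]

theorem isAdjOp_star (x : H →L[ℂ] H) : IsAdjOp x (star x) := fun h k => by
  rw [ContinuousLinearMap.star_eq_adjoint, ContinuousLinearMap.adjoint_inner_right]

theorem eq_star_of_isAdjOp {x y : H →L[ℂ] H} (h : IsAdjOp x y) : y = star x :=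
  ContinuousLinearMap.ext fun k => ext_inner_left ℂ fun v => by
    rw [← h v k, ← isAdjOp_star x v k]

theorem unitary_of_isUnitaryOp {u : H →L[ℂ] H} (h : IsUnitaryOp u) : u ∈ unitary (H →L[ℂ] H) :=
  (Unitary.linearIsometryEquiv.symm
    (LinearIsometryEquiv.ofSurjective ⟨u.toLinearMap, h.1⟩ h.2)).2

theorem isUnitaryOp_of_unitary {u : H →L[ℂ] H} (h : u ∈ unitary (H →L[ℂ] H)) : IsUnitaryOp u :=
  ⟨Unitary.norm_map ⟨u, h⟩, (Unitary.linearIsometryEquiv ⟨u, h⟩).surjective⟩

theorem intertwines_of_eq {u x y : H →L[ℂ] H} (hu : u ∈ unitary (H →L[ℂ] H))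
    (h : y = u * x * star u) : Intertwines u x y := fun v => by
  have e : y * u = u * x := by
    rw [h, mul_assoc, (Unitary.mem_iff.1 hu).1, mul_one]
  exact DFunLike.congr_fun e v

theorem eq_of_intertwines {u x y : H →L[ℂ] H} (hu : u ∈ unitary (H →L[ℂ] H))
    (h : Intertwines u x y) : y = u * x * star u := by
  have e : y * u = u * x := ContinuousLinearMap.ext h
  rw [← e, mul_assoc, (Unitary.mem_iff.1 hu).2, mul_one]

theorem exists_hom {M : VonNeumannAlgebra H} {θ : (H →L[ℂ] H) → (H →L[ℂ] H)}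
    (h : IsRep M θ) : ∃ φ : M.toStarSubalgebra →⋆ₐ[ℂ] (H →L[ℂ] H),
      ∀ x : M.toStarSubalgebra, φ x = θ x := by
  obtain ⟨h1, hl, hp, ha⟩ := h
  have hθ1 : θ 1 = 1 := ContinuousLinearMap.ext h1
  have hadd : ∀ (c : ℂ) (x y : H →L[ℂ] H), x ∈ M → y ∈ M → c • x + y ∈ M →
      θ (c • x + y) = c • θ x + θ y := fun c x y hx hy hz =>
    ContinuousLinearMap.ext (hl x hx y hy _ hz c fun _ => rfl)
  have hθ0 : θ 0 = 0 := by
    have := hadd (1 : ℂ) 0 0 (zero_mem M) (zero_mem M) (by simp [zero_mem M])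
    simpa using this
  refine ⟨{ toFun := fun x => θ x
            map_one' := hθ1
            map_mul' := fun x y => ContinuousLinearMap.ext
              (hp x x.2 y y.2 _ (x * y).2 fun _ => rfl)
            map_zero' := hθ0
            map_add' := fun x y => ?_
            commutes' := fun c => ?_
            map_star' := fun x => eq_star_of_isAdjOp
              (ha x x.2 _ (star x).2 (isAdjOp_star _)) }, fun _ => rfl⟩
  · have := hadd (1 : ℂ) x y x.2 y.2 (by simp only [one_smul]; exact (x + y).2)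
    simpa using this
  · show θ ((algebraMap ℂ M.toStarSubalgebra c : M.toStarSubalgebra) : H →L[ℂ] H) = _
    have := hadd c 1 0 (one_mem M) (zero_mem M)
      (by rw [add_zero]; exact M.toStarSubalgebra.toSubalgebra.smul_mem (one_mem M.toStarSubalgebra) c)
    simpa [hθ0, hθ1, Algebra.algebraMap_eq_smul_one] using this

theorem nearConj_to_iso {M N : VonNeumannAlgebra H} {γ : ℝ}
    (h : NearConj M N γ) : NearIso M N (2 * γ) := by
  obtain ⟨u, hu, hu1, hMN, hNM⟩ := h
  have hU := unitary_of_isUnitaryOp hu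
  obtain ⟨hU1, hU2⟩ := Unitary.mem_iff.1 hU
  have key : ∀ a : H →L[ℂ] H, star u * (u * a) = a := fun a => by rw [← mul_assoc, hU1, one_mul]
  refine ⟨fun x => u * x * star u, ⟨?_, ?_, ?_, ?_⟩, fun x _ => ?_, fun x hx => ?_, fun y hy => ?_⟩
  · intro v
    show (u * 1 * star u) v = v
    rw [mul_one, hU2]; rfl
  · intro x _ y _ z _ c hz v
    have e : z = c • x + y := ContinuousLinearMap.ext hz
    show (u * z * star u) v = _
    rw [e]
    simp [mul_apply_eq_comp]
  · intro x _ y _ z _ hz v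
    have e : z = x * y := ContinuousLinearMap.ext hz
    show (u * z * star u) v = _
    rw [e]
    exact DFunLike.congr_fun (show u * (x * y) * star u = u * x * star u * (u * y * star u) by
      simp only [mul_assoc, key]) v
  · intro x _ y _ hxy
    rw [eq_star_of_isAdjOp hxy]
    have e : u * star x * star u = star (u * x * star u) := by simp [star_mul, mul_assoc]
    intro v w
    show ⟪(u * x * star u) v, w⟫_ℂ = ⟪v, (u * star x * star u) w⟫_ℂ
    rw [e]
    exact isAdjOp_star _ v w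
  · show ‖u * x * star u - x‖ ≤ 2 * γ * ‖x‖
    have hu1' : ‖u - 1‖ ≤ γ := hu1
    have e : u * x * star u - x = ((u - 1) * x - x * (u - 1)) * star u := by
      simp only [sub_mul, mul_sub, one_mul, mul_one, mul_assoc, hU2]
      abel
    rw [e]
    refine (norm_mul_le _ _).trans ?_
    have h1 : ‖star u‖ ≤ 1 := by
      rw [norm_star]
      exact ContinuousLinearMap.opNorm_le_bound _ zero_le_one fun v => by rw [hu.1, one_mul]
    refine (mul_le_of_le_one_right (norm_nonneg _) h1).trans ((norm_sub_le _ _).trans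
      ((add_le_add (norm_mul_le _ _) (norm_mul_le _ _)).trans ?_))
    nlinarith [norm_nonneg x]
  · obtain ⟨y, hy, hxy⟩ := hMN x hx
    show u * x * star u ∈ N
    rwa [← eq_of_intertwines hU hxy]
  · obtain ⟨x, hx, hxy⟩ := hNM y hy
    exact ⟨x, hx, (eq_of_intertwines hU hxy).symm⟩

theorem commutantSet_eq (S : Set (H →L[ℂ] H)) : commutantSet S = Set.centralizer S :=
  Set.ext fun _ => ⟨fun h x hx => ContinuousLinearMap.ext (h x hx),
    fun h x hx v => DFunLike.congr_fun (h x hx) v⟩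

theorem final : ∃ C : ℝ, 0 ≤ C ∧ ∀ (H : Type u) [NormedAddCommGroup H] [InnerProductSpace ℂ H]
    [CompleteSpace H] (γ : ℝ), 0 ≤ γ →
    RepRigid C γ H ∧ IsoConj C γ H ∧ CommutantNear C γ H ∧ CompleteNear C γ H := by
  obtain ⟨C₁, hC₁, h₁⟩ := rep_near.{u}
  obtain ⟨C₃, hC₃, h₃⟩ := commutant_near.{u}
  obtain ⟨C₄, hC₄, h₄⟩ := complete_near.{u}
  refine ⟨C₁ + C₃ + C₄, by positivity, fun H _ _ _ γ hγ => ?_⟩
  have m1 : C₁ * γ ≤ (C₁ + C₃ + C₄) * γ := mul_le_mul_of_nonneg_right (by linarith) hγ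
  have main : ∀ (M : VonNeumannAlgebra H) (θ : (H →L[ℂ] H) → (H →L[ℂ] H)),
      (C₁ + C₃ + C₄) * γ < 1 → IsRep M θ → NearOn M θ γ →
      ∃ u, IsUnitaryOp u ∧ u ∈ unitary (H →L[ℂ] H) ∧ ‖u - 1‖ ≤ (C₁ + C₃ + C₄) * γ ∧
        ∀ x ∈ M, θ x = u * x * star u := fun M θ hlt hr hn => by
    obtain ⟨φ, hφ⟩ := exists_hom hr
    obtain ⟨u, hu, hu1, hue⟩ := h₁ H M.toStarSubalgebra φ γ hγ (m1.trans_lt hlt)
      fun x => by rw [hφ]; exact hn x x.2
    exact ⟨u, isUnitaryOp_of_unitary hu, hu, hu1.trans m1, fun x hx => by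
      rw [← hue ⟨x, hx⟩, hφ]⟩
  refine ⟨?_, ?_, ?_, ?_⟩
  · intro M θ hlt hr hn
    obtain ⟨u, hu, hU, hu1, hue⟩ := main M θ hlt hr hn
    exact ⟨u, hu, hu1, fun x hx => intertwines_of_eq hU (hue x hx)⟩
  · intro M N hlt
    refine ⟨?_, fun h => nearConj_to_iso h⟩
    rintro ⟨θ, hr, hn, hin, hsur⟩
    obtain ⟨u, hu, hU, hu1, hue⟩ := main M θ hlt hr hn
    refine ⟨u, hu, hu1, fun x hx => ⟨θ x, hin x hx, intertwines_of_eq hU (hue x hx)⟩, fun y hy => ?_⟩
    obtain ⟨x, hx, rfl⟩ := hsur y hy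
    exact ⟨x, hx, intertwines_of_eq hU (hue x hx)⟩
  · intro M N hMN a ha ha1
    rw [commutantSet_eq] at ha
    obtain ⟨b, hb, hab⟩ := h₃ H M.toStarSubalgebra N.toStarSubalgebra γ hγ hMN a ha ha1
    rw [commutantSet_eq]
    exact ⟨b, hb, hab.trans (mul_le_mul_of_nonneg_right (by linarith) hγ)⟩
  · intro M N hMN n X hX hXc
    obtain ⟨Y, hY, hYb⟩ := h₄ H M.toStarSubalgebra N γ hγ hMN n X hX
      (fun η => by simpa [MatBdd] using hXc η)
    refine ⟨Y, hY, fun η => (hYb η).trans (mul_le_mul_of_nonneg_right ?_ (by positivity))⟩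
    exact pow_le_pow_left₀ (by positivity) (mul_le_mul_of_nonneg_right (by linarith) hγ) 2

end Vale.Agent.P096
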