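import Vale.Agent.P104.Distance.Amplify

/-!
Operator matrices acting on finite tuples of vectors.
-/

namespace Vale.Agent.P096

open scoped InnerProductSpace
open Vale.Agent.P104.Distance

universe u

variable {H : Type u} [NormedAddCommGroup H] [InnerProductSpace ℂ H] {n : ℕ}

/-- The operator of a matrix of operators. -/
noncomputable def mat (X : Fin n → Fin n → (H →L[ℂ] H)) : Tuple H n →L[ℂ] Tuple H n :=
  ∑ i, ∑ j, (incl i).comp ((X i j).comp (PiLp.proj 2 (fun _ : Fin n => H) j))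

theorem mat_apply (X : Fin n → Fin n → (H →L[ℂ] H)) (v : Tuple H n) (i : Fin n) :
    mat X v i = ∑ j, X i j (v j) := by
  simp [mat, WithLp.ofLp_sum, Finset.sum_apply, incl_apply, Finset.sum_ite_eq]

/-- The entries of an operator on tuples. -/
noncomputable def ent (Z : Tuple H n →L[ℂ] Tuple H n) (i j : Fin n) : H →L[ℂ] H :=
  (PiLp.proj 2 (fun _ : Fin n => H) i).comp (Z.comp (incl j))

theorem ent_apply (Z : Tuple H n →L[ℂ] Tuple H n) (i j : Fin n) (h : H) :
    ent Z i j h = Z (incl j h) i := rfl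

theorem mat_ent (Z : Tuple H n →L[ℂ] Tuple H n) : mat (ent Z) = Z := by
  ext v i
  rw [mat_apply]
  conv_rhs => rw [← sum_incl v, map_sum]
  simp [ent_apply, WithLp.ofLp_sum, Finset.sum_apply]

theorem norm_incl_le (j : Fin n) (h : H) : ‖incl j h‖ ≤ ‖h‖ := by
  have e : ‖incl j h‖ ^ 2 = ‖h‖ ^ 2 := by
    rw [PiLp.norm_sq_eq_of_L2, Finset.sum_eq_single j (fun b _ hb => by simp [incl_apply, hb])
      (fun hj => absurd (Finset.mem_univ j) hj)]
    simp [incl_apply]
  exact le_of_eq ((pow_left_inj₀ (norm_nonneg _) (norm_nonneg _) two_ne_zero).1 e)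

theorem norm_ent_le (Z : Tuple H n →L[ℂ] Tuple H n) (i j : Fin n) : ‖ent Z i j‖ ≤ ‖Z‖ :=
  ContinuousLinearMap.opNorm_le_bound _ (norm_nonneg Z) fun h =>
    (PiLp.norm_apply_le (Z (incl j h)) i).trans
      ((Z.le_opNorm _).trans (mul_le_mul_of_nonneg_left (norm_incl_le j h) (norm_nonneg _)))

theorem norm_le_of_sq {Z : Tuple H n →L[ℂ] Tuple H n} {c : ℝ} (hc : 0 ≤ c)
    (h : ∀ v, ∑ i, ‖Z v i‖ ^ 2 ≤ c ^ 2 * ∑ i, ‖v i‖ ^ 2) : ‖Z‖ ≤ c := by
  refine ContinuousLinearMap.opNorm_le_bound _ hc fun v => ?_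
  rw [← pow_le_pow_iff_left₀ (norm_nonneg _) (mul_nonneg hc (norm_nonneg _)) two_ne_zero, mul_pow,
    PiLp.norm_sq_eq_of_L2, PiLp.norm_sq_eq_of_L2]
  exact h v

theorem sq_le_of_norm {Z : Tuple H n →L[ℂ] Tuple H n} {c : ℝ}
    (h : ‖Z‖ ≤ c) (v : Tuple H n) : ∑ i, ‖Z v i‖ ^ 2 ≤ c ^ 2 * ∑ i, ‖v i‖ ^ 2 := by
  have h1 : ‖Z v‖ ≤ c * ‖v‖ :=
    (Z.le_opNorm v).trans (mul_le_mul_of_nonneg_right h (norm_nonneg _))
  have h2 := pow_le_pow_left₀ (norm_nonneg _) h1 2
  rwa [mul_pow, PiLp.norm_sq_eq_of_L2, PiLp.norm_sq_eq_of_L2] at h2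

/-- A diagonal operator. -/
noncomputable def diag (a : Fin n → (H →L[ℂ] H)) : Tuple H n →L[ℂ] Tuple H n :=
  mat fun i j => if i = j then a i else 0

theorem diag_apply (a : Fin n → (H →L[ℂ] H)) (v : Tuple H n) (i : Fin n) :
    diag a v i = a i (v i) := by
  simp only [diag, mat_apply]
  rw [Finset.sum_eq_single i (fun b _ hb => by rw [if_neg (Ne.symm hb)]; rfl)
    (fun hi => absurd (Finset.mem_univ i) hi), if_pos rfl]

theorem diag_incl (a : Fin n → (H →L[ℂ] H)) (j : Fin n) (h : H) :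
    diag a (incl j h) = incl j (a j h) := by
  ext i
  rw [diag_apply, incl_apply, incl_apply]
  split <;> simp_all

theorem diag_mul (a b : Fin n → (H →L[ℂ] H)) : diag a * diag b = diag (a * b) := by
  ext v i
  simp [diag_apply, ContinuousLinearMap.mul_apply]

theorem diag_one : diag (1 : Fin n → (H →L[ℂ] H)) = 1 := by
  ext v i
  simp [diag_apply]

theorem diag_add (a b : Fin n → (H →L[ℂ] H)) : diag (a + b) = diag a + diag b := by
  ext v i
  simp [diag_apply]

theorem diag_zero : diag (0 : Fin n → (H →L[ℂ] H)) = 0 := by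
  ext v i
  simp [diag_apply]

theorem diag_star [CompleteSpace H] (a : Fin n → (H →L[ℂ] H)) :
    star (diag a) = diag (star a) := by
  rw [ContinuousLinearMap.star_eq_adjoint, eq_comm, ContinuousLinearMap.eq_adjoint_iff]
  intro v w
  simp only [PiLp.inner_apply, diag_apply, Pi.star_apply, ContinuousLinearMap.star_eq_adjoint,
    ContinuousLinearMap.adjoint_inner_left]

/-- The diagonal as a star homomorphism. -/
noncomputable def diagHom [CompleteSpace H] :
    (Fin n → (H →L[ℂ] H)) →⋆ₐ[ℂ] (Tuple H n →L[ℂ] Tuple H n) where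
  toFun := diag
  map_one' := diag_one
  map_mul' a b := (diag_mul a b).symm
  map_zero' := diag_zero
  map_add' := diag_add
  commutes' c := by
    ext v i
    simp [diag_apply, Algebra.algebraMap_eq_smul_one]
  map_star' a := (diag_star a).symm

theorem norm_diag_le (a : Fin n → (H →L[ℂ] H)) {c : ℝ} (hc : 0 ≤ c) (h : ∀ i, ‖a i‖ ≤ c) :
    ‖diag a‖ ≤ c := by
  refine norm_le_of_sq hc fun v => ?_
  rw [Finset.mul_sum]
  refine Finset.sum_le_sum fun i _ => ?_
  rw [diag_apply, ← mul_pow]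
  exact pow_le_pow_left₀ (norm_nonneg _)
    (((a i).le_opNorm _).trans (mul_le_mul_of_nonneg_right (h i) (norm_nonneg _))) 2

end Vale.Agent.P096
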