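import Vale.Agent.P096.Base
import Vale.Agent.P096.Tuple

/-!
Consequences of the distance estimate: commutants of nearly included algebras, matrix amplifications,
and representations near the inclusion.
-/

namespace Vale.Agent.P096

open scoped InnerProductSpace
open Vale.Agent.P104 Vale.Agent.P104.Distance

universe u

theorem distanceAll : ∃ C : ℝ, 0 ≤ C ∧ ∀ (H : Type u) [NormedAddCommGroup H]
    [InnerProductSpace ℂ H] [CompleteSpace H] (A : StarSubalgebra ℂ (H →L[ℂ] H)) (T : H →L[ℂ] H)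
    (d : ℝ), 0 ≤ d → CommBound (A : Set (H →L[ℂ] H)) T d →
    ∃ k ∈ Set.centralizer (A : Set (H →L[ℂ] H)), ‖T - k‖ ≤ C * d := by
  obtain ⟨C, hC, h⟩ := distanceBound.{u}
  refine ⟨2 * C, by positivity, fun H _ _ _ A T d hd hT => ?_⟩
  have hT' : CommBound (A : Set (H →L[ℂ] H)) (star T) d := fun a ha h1 => by
    have := hT (star a) (star_mem (show a ∈ A from ha)) (by rwa [norm_star])
    rwa [← norm_star, star_sub, star_mul, star_mul, star_star, norm_sub_rev] at this
  set T₁ : H →L[ℂ] H := (1 / 2 : ℂ) • (T + star T) with hT₁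
  set T₂ : H →L[ℂ] H := (Complex.I / 2) • (star T - T) with hT₂
  have hs₁ : IsSelfAdjoint T₁ := by
    simp [hT₁, IsSelfAdjoint, star_smul, add_comm]
  have hs₂ : IsSelfAdjoint T₂ := by
    rw [hT₂, IsSelfAdjoint, star_smul, star_sub, star_star]
    have e : star (Complex.I / 2) = -(Complex.I / 2) := by simp [neg_div]
    rw [e]; module
  have b₁ : CommBound (A : Set (H →L[ℂ] H)) T₁ d := fun a ha h1 => by
    have e : T₁ * a - a * T₁ =
        (1 / 2 : ℂ) • ((T * a - a * T) + (star T * a - a * star T)) := by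
      rw [hT₁, smul_mul_assoc, mul_smul_comm, ← smul_sub, add_mul, mul_add]; abel_nf
    rw [e, norm_smul]
    refine (mul_le_mul_of_nonneg_left (norm_add_le _ _) (norm_nonneg _)).trans ?_
    have := hT a ha h1
    have := hT' a ha h1
    norm_num
    linarith
  have b₂ : CommBound (A : Set (H →L[ℂ] H)) T₂ d := fun a ha h1 => by
    have e : T₂ * a - a * T₂ =
        (Complex.I / 2) • ((star T * a - a * star T) - (T * a - a * T)) := by
      rw [hT₂, smul_mul_assoc, mul_smul_comm, ← smul_sub, sub_mul, mul_sub]; abel_nf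
    rw [e, norm_smul]
    refine (mul_le_mul_of_nonneg_left (norm_sub_le _ _) (norm_nonneg _)).trans ?_
    have := hT a ha h1
    have := hT' a ha h1
    simp
    linarith
  obtain ⟨k₁, hk₁, -, n₁⟩ := h H A T₁ hs₁ d hd b₁
  obtain ⟨k₂, hk₂, -, n₂⟩ := h H A T₂ hs₂ d hd b₂
  refine ⟨k₁ + Complex.I • k₂, fun a ha => ?_, ?_⟩
  · rw [mul_add, add_mul, mul_smul_comm, smul_mul_assoc, hk₁ a ha, hk₂ a ha]
  · have e : T = T₁ + Complex.I • T₂ := by
      rw [hT₁, hT₂, smul_smul, show Complex.I * (Complex.I / 2) = -(1 / 2 : ℂ) by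
        rw [mul_div_assoc', Complex.I_mul_I]; norm_num]
      module
    rw [e, show T₁ + Complex.I • T₂ - (k₁ + Complex.I • k₂) =
      (T₁ - k₁) + Complex.I • (T₂ - k₂) by rw [smul_sub]; abel]
    refine (norm_add_le _ _).trans ?_
    rw [norm_smul, Complex.norm_I, one_mul]
    linarith

theorem centralizer_star {H : Type u} [NormedAddCommGroup H] [InnerProductSpace ℂ H]
    [CompleteSpace H] (A : StarSubalgebra ℂ (H →L[ℂ] H)) :
    (StarSubalgebra.centralizer ℂ (A : Set (H →L[ℂ] H)) : Set (H →L[ℂ] H)) =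
      Set.centralizer (A : Set (H →L[ℂ] H)) := by
  rw [StarSubalgebra.coe_centralizer]
  have e : star (A : Set (H →L[ℂ] H)) = A := Set.ext fun x => by simp
  rw [e, Set.union_self]

theorem commutant_near : ∃ C : ℝ, 0 ≤ C ∧ ∀ (H : Type u) [NormedAddCommGroup H]
    [InnerProductSpace ℂ H] [CompleteSpace H] (M N : StarSubalgebra ℂ (H →L[ℂ] H)) (γ : ℝ),
    0 ≤ γ → (∀ x ∈ M, ‖x‖ ≤ 1 → ∃ y ∈ N, ‖x - y‖ ≤ γ) →
    ∀ a ∈ Set.centralizer (N : Set (H →L[ℂ] H)), ‖a‖ ≤ 1 →
      ∃ b ∈ Set.centralizer (M : Set (H →L[ℂ] H)), ‖a - b‖ ≤ C * γ := by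
  obtain ⟨C, hC, h⟩ := distanceAll.{u}
  refine ⟨2 * C, by positivity, fun H _ _ _ M N γ hγ hMN a ha ha1 => ?_⟩
  have hb : CommBound (M : Set (H →L[ℂ] H)) a (2 * γ) := fun x hx hx1 => by
    obtain ⟨y, hy, hxy⟩ := hMN x hx hx1
    have e : a * x - x * a = a * (x - y) - (x - y) * a := by
      rw [mul_sub, sub_mul, ← ha y hy]; abel
    rw [e]
    refine (norm_sub_le _ _).trans ((add_le_add (norm_mul_le _ _) (norm_mul_le _ _)).trans ?_)
    nlinarith [norm_nonneg a, norm_nonneg (x - y)]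
  obtain ⟨b, hb, hn⟩ := h H M a (2 * γ) (by positivity) hb
  exact ⟨b, hb, hn.trans_eq (by ring)⟩

theorem complete_near : ∃ C : ℝ, 0 ≤ C ∧ ∀ (H : Type u) [NormedAddCommGroup H]
    [InnerProductSpace ℂ H] [CompleteSpace H] (M : StarSubalgebra ℂ (H →L[ℂ] H))
    (N : VonNeumannAlgebra H) (γ : ℝ),
    0 ≤ γ → (∀ x ∈ M, ‖x‖ ≤ 1 → ∃ y ∈ N, ‖x - y‖ ≤ γ) →
    ∀ (n : ℕ) (X : Fin n → Fin n → (H →L[ℂ] H)), (∀ i j, X i j ∈ M) →
      (∀ η : Fin n → H, ∑ i, ‖∑ j, X i j (η j)‖ ^ 2 ≤ ∑ j, ‖η j‖ ^ 2) →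
      ∃ Y : Fin n → Fin n → (H →L[ℂ] H), (∀ i j, Y i j ∈ N) ∧
        ∀ η : Fin n → H,
          ∑ i, ‖∑ j, (X i j - Y i j) (η j)‖ ^ 2 ≤ (C * γ) ^ 2 * ∑ j, ‖η j‖ ^ 2 := by
  obtain ⟨C, hC, h⟩ := distanceAll.{u}
  obtain ⟨C', hC', h'⟩ := commutant_near.{u}
  refine ⟨C * (2 * C'), by positivity, fun H _ _ _ M N γ hγ hMN n X hXM hX => ?_⟩
  set R := StarSubalgebra.centralizer ℂ (N : Set (H →L[ℂ] H)) with hR
  have hR' : (R : Set (H →L[ℂ] H)) = Set.centralizer (N : Set (H →L[ℂ] H)) :=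
    centralizer_star N.toStarSubalgebra
  let φ : R →⋆ₐ[ℂ] (Fin n → (H →L[ℂ] H)) :=
    { toFun := fun a _ => a
      map_one' := rfl
      map_mul' := fun _ _ => rfl
      map_zero' := rfl
      map_add' := fun _ _ => rfl
      commutes' := fun _ => rfl
      map_star' := fun _ => rfl }
  set A := (diagHom.comp φ).range with hA
  have hXc : ‖mat X‖ ≤ 1 := norm_le_of_sq zero_le_one fun v => by
    simpa [mat_apply] using hX fun j => v j
  have hcomm : CommBound (A : Set (Tuple H n →L[ℂ] Tuple H n)) (mat X) (2 * C' * γ) := by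
    rintro _ ⟨a, rfl⟩ h1
    show ‖mat X * diag (fun _ => (a : H →L[ℂ] H)) - diag (fun _ => (a : H →L[ℂ] H)) * mat X‖ ≤ _
    rcases Nat.eq_zero_or_pos n with rfl | hn
    · refine (le_of_eq ?_).trans (by positivity : (0 : ℝ) ≤ 2 * C' * γ)
      rw [norm_eq_zero]
      ext v i
      exact i.elim0
    have ha1 : ‖(a : H →L[ℂ] H)‖ ≤ 1 := by
      refine le_trans (le_of_eq ?_) ((norm_ent_le _ ⟨0, hn⟩ ⟨0, hn⟩).trans h1)
      congr 1
      ext x
      show _ = diag (fun _ => (a : H →L[ℂ] H)) (incl _ x) _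
      simp [diag_apply, incl_apply]
    obtain ⟨b, hb, hab⟩ := h' H M N.toStarSubalgebra γ hγ hMN a
      (by have := a.2; rw [← SetLike.mem_coe, hR'] at this; exact this) ha1
    have hbc : mat X * diag (fun _ => b) = diag (fun _ => b) * mat X := by
      ext v i
      simp only [ContinuousLinearMap.mul_apply, mat_apply, diag_apply, map_sum]
      exact Finset.sum_congr rfl fun j _ => DFunLike.congr_fun (hb _ (hXM i j)) (v j)
    set D := diag (n := n) (fun _ => (a : H →L[ℂ] H)) - diag (fun _ => b) with hD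
    have hDn : ‖D‖ ≤ C' * γ := by
      have e : D = diag (fun _ => (a : H →L[ℂ] H) - b) := by
        ext v i
        simp [hD, diag_apply]
      rw [e]
      exact norm_diag_le _ (by positivity) fun _ => hab
    rw [show diag (n := n) (fun _ => (a : H →L[ℂ] H)) = D + diag (fun _ => b) by simp [hD],
      mul_add, add_mul, hbc, add_sub_add_right_eq_sub]
    refine (norm_sub_le _ _).trans ((add_le_add (norm_mul_le _ _) (norm_mul_le _ _)).trans ?_)
    nlinarith [norm_nonneg D, norm_nonneg (mat X)]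
  obtain ⟨K, hK, hKn⟩ := h (Tuple H n) A (mat X) (2 * C' * γ) (by positivity) hcomm
  refine ⟨ent K, fun i j => ?_, fun η => ?_⟩
  · have : ent K i j ∈ Set.centralizer (Set.centralizer (N : Set (H →L[ℂ] H))) := fun a ha => by
      rw [← hR'] at ha
      have := hK (diag fun _ => a) ⟨⟨a, ha⟩, rfl⟩
      ext x
      have e := congrArg (fun v : Tuple H n => v i) (DFunLike.congr_fun this (incl j x))
      simpa [ContinuousLinearMap.mul_apply, diag_apply, diag_incl, ent_apply] using e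
    rwa [N.centralizer_centralizer] at this
  · have e := sq_le_of_norm (hKn.trans_eq (by ring : C * (2 * C' * γ) = C * (2 * C') * γ))
      (WithLp.toLp 2 η)
    rw [← mat_ent K] at e
    simpa [mat_apply, Finset.sum_sub_distrib] using e

end Vale.Agent.P096
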