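import Vale.Agent.P096.Near

/-!
Representations near the inclusion are implemented by unitaries near one.
-/

namespace Vale.Agent.P096

open scoped InnerProductSpace
open Vale.Agent.P104 Vale.Agent.P104.Distance

universe u

theorem polar_near {H : Type u} [NormedAddCommGroup H] [InnerProductSpace ℂ H] [CompleteSpace H]
    {w : H →L[ℂ] H} {δ : ℝ} (hδ : δ ≤ 1 / 8) (hw : ‖w - 1‖ ≤ δ) :
    ∃ u ∈ unitary (H →L[ℂ] H), ‖u - 1‖ ≤ 8 * δ ∧
      ∀ x y : H →L[ℂ] H, y * w = w * x → Commute (star w * w) x → y = u * x * star u := by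
  rcases subsingleton_or_nontrivial (H →L[ℂ] H) with hs | hs
  · refine ⟨1, one_mem _, ?_, fun x y _ _ => Subsingleton.elim _ _⟩
    simp only [sub_self, norm_zero]
    linarith [(norm_nonneg _).trans hw]
  have hδ0 : 0 ≤ δ := (norm_nonneg _).trans hw
  set a := star w * w with ha
  have hsa : IsSelfAdjoint a := IsSelfAdjoint.star_mul_self w
  have hwn : ‖w‖ ≤ 1 + δ := by
    calc ‖w‖ = ‖(w - 1) + 1‖ := by rw [sub_add_cancel]
      _ ≤ ‖w - 1‖ + ‖(1 : H →L[ℂ] H)‖ := norm_add_le _ _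
      _ ≤ 1 + δ := by rw [norm_one]; linarith
  have ha1 : ‖a - 1‖ ≤ 3 * δ := by
    have e : a - 1 = star (w - 1) * w + (w - 1) := by
      rw [ha, star_sub, star_one, sub_mul, one_mul]; abel
    rw [e]
    refine (norm_add_le _ _).trans ((add_le_add_left (norm_mul_le _ _) _).trans ?_)
    rw [norm_star]
    nlinarith [norm_nonneg w, norm_nonneg (w - 1)]
  have hspec : ∀ t ∈ spectrum ℝ a, |t - 1| ≤ 3 * δ := fun t ht => by
    have e : cfc (fun s : ℝ => s - 1) a = a - 1 := by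
      rw [cfc_sub (fun s : ℝ => s) (fun _ => (1 : ℝ)) a, cfc_id' ℝ a, cfc_const_one ℝ a]
    have := norm_apply_le_norm_cfc (fun s : ℝ => s - 1) a ht
    rw [e, Real.norm_eq_abs] at this
    linarith
  have hpos : ∀ t ∈ spectrum ℝ a, 1 / 2 ≤ t := fun t ht => by
    have := (abs_le.1 (hspec t ht)).1
    linarith
  set g : ℝ → ℝ := fun t => (√t)⁻¹ with hg
  have hgc : ContinuousOn g (spectrum ℝ a) :=
    Real.continuous_sqrt.continuousOn.inv₀ fun t ht =>
      (Real.sqrt_pos.2 (lt_of_lt_of_le (by norm_num) (hpos t ht))).ne'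
  set r := cfc g a with hr
  have hrs : IsSelfAdjoint r := cfc_predicate g a
  have hrar : r * a * r = 1 := by
    conv_lhs => rw [hr, ← cfc_id' ℝ a, cfc_id' ℝ a]
    rw [show cfc g a * a = cfc g a * cfc (fun t : ℝ => t) a by rw [cfc_id' ℝ a],
      ← cfc_mul g (fun t => t) a hgc, ← cfc_mul (fun t => g t * t) g a (hgc.mul continuousOn_id) hgc,
      cfc_congr (g := fun _ => (1 : ℝ)) fun t ht => ?_, cfc_const_one ℝ a]
    have h0 : 0 < √t := Real.sqrt_pos.2 (lt_of_lt_of_le (by norm_num) (hpos t ht))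
    simp only [hg]
    field_simp
    rw [Real.sq_sqrt (by linarith [hpos t ht])]
  have hr1 : ‖r - 1‖ ≤ 6 * δ := by
    have e : cfc (fun t => g t - 1) a = r - 1 := by
      rw [cfc_sub g (fun _ => (1 : ℝ)) a hgc, cfc_const_one ℝ a, hr]
    rw [← e]
    refine norm_cfc_le (by positivity) fun t ht => ?_
    have ht0 := hpos t ht
    have hs : 1 / 2 ≤ √t := by
      rw [show (1 / 2 : ℝ) = √(1 / 4) by rw [show (1 / 4 : ℝ) = (1 / 2) ^ 2 by norm_num,
        Real.sqrt_sq (by norm_num)]]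
      exact Real.sqrt_le_sqrt (by linarith)
    have hsq : √t * √t = t := Real.mul_self_sqrt (by linarith)
    have hg1 : (g t - 1) * (√t * (1 + √t)) = 1 - t := by
      simp only [hg]
      field_simp
      nlinarith [hsq]
    have hD : 1 / 2 ≤ √t * (1 + √t) := by nlinarith
    have := congrArg abs hg1
    rw [abs_mul, abs_sub_comm 1 t, abs_of_pos (by linarith : 0 < √t * (1 + √t))] at this
    rw [Real.norm_eq_abs]
    nlinarith [hspec t ht, abs_nonneg (g t - 1)]
  have hrn : ‖r‖ ≤ 2 := by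
    calc ‖r‖ = ‖(r - 1) + 1‖ := by rw [sub_add_cancel]
      _ ≤ ‖r - 1‖ + ‖(1 : H →L[ℂ] H)‖ := norm_add_le _ _
      _ ≤ 2 := by rw [norm_one]; linarith
  have hwu : IsUnit w := by
    have := (Units.oneSub (1 - w) (by rw [norm_sub_rev]; linarith)).isUnit
    simpa using this
  have hru : IsUnit r := by
    have := (Units.oneSub (1 - r) (by
      rw [norm_sub_rev]
      linarith)).isUnit
    simpa using this
  have h1 : star (w * r) * (w * r) = 1 := by
    rw [star_mul, hrs.star_eq, ← hrar, ha]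
    simp only [mul_assoc]
  have h2 : w * r * star (w * r) = 1 := by
    obtain ⟨v, hv⟩ := hwu.mul hru
    rw [← hv] at h1 ⊢
    rw [show star (v : H →L[ℂ] H) = ↑v⁻¹ by
      rw [← mul_one (star (v : H →L[ℂ] H)), ← v.mul_inv, ← mul_assoc, h1, one_mul]]
    exact v.mul_inv
  refine ⟨w * r, Unitary.mem_iff.2 ⟨h1, h2⟩, ?_, fun x y hy hc => ?_⟩
  · have e : w * r - 1 = (w - 1) * r + (r - 1) := by noncomm_ring
    rw [e]
    refine (norm_add_le _ _).trans ((add_le_add_left (norm_mul_le _ _) _).trans ?_)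
    nlinarith [norm_nonneg r, norm_nonneg (w - 1)]
  · have hcr : r * x = x * r := (Commute.cfc_real hc g).eq
    calc y = y * (w * r * star (w * r)) := by rw [h2, mul_one]
      _ = y * w * r * star (w * r) := by simp only [mul_assoc]
      _ = w * (r * x) * star (w * r) := by rw [hy, hcr]; simp only [mul_assoc]
      _ = w * r * x * star (w * r) := by simp only [mul_assoc]

theorem rep_near : ∃ C : ℝ, 0 ≤ C ∧ ∀ (H : Type u) [NormedAddCommGroup H]
    [InnerProductSpace ℂ H] [CompleteSpace H] (M : StarSubalgebra ℂ (H →L[ℂ] H))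
    (θ : M →⋆ₐ[ℂ] (H →L[ℂ] H)) (γ : ℝ), 0 ≤ γ → C * γ < 1 →
    (∀ x : M, ‖θ x - (x : H →L[ℂ] H)‖ ≤ γ * ‖(x : H →L[ℂ] H)‖) →
    ∃ u ∈ unitary (H →L[ℂ] H), ‖u - 1‖ ≤ C * γ ∧
      ∀ x : M, θ x = u * (x : H →L[ℂ] H) * star u := by
  obtain ⟨C, hC, h⟩ := distanceAll.{u}
  refine ⟨8 * C, by positivity, fun H _ _ _ M θ γ hγ hlt hθ => ?_⟩
  let φ : M →⋆ₐ[ℂ] (Fin 2 → (H →L[ℂ] H)) :=
    { toFun := fun x => ![(x : H →L[ℂ] H), θ x]
      map_one' := by ext i : 1; fin_cases i <;> simp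
      map_mul' := fun x y => by ext i : 1; fin_cases i <;> simp
      map_zero' := by ext i : 1; fin_cases i <;> simp
      map_add' := fun x y => by ext i : 1; fin_cases i <;> simp
      commutes' := fun c => by ext i : 1; fin_cases i <;> simp [AlgHomClass.commutes]
      map_star' := fun x => by ext i : 1; fin_cases i <;> simp [map_star] }
  set π := diagHom.comp φ with hπ
  have hπ' : ∀ x : M, π x = diag ![(x : H →L[ℂ] H), θ x] := fun _ => rfl
  set T : Tuple H 2 →L[ℂ] Tuple H 2 := mat ![![0, 1], ![1, 0]] with hT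
  have hT0 : ∀ v : Tuple H 2, T v 0 = v 1 := fun v => by simp [hT, mat_apply, Fin.sum_univ_two]
  have hT1 : ∀ v : Tuple H 2, T v 1 = v 0 := fun v => by simp [hT, mat_apply, Fin.sum_univ_two]
  have hcomm : CommBound (π.range : Set (Tuple H 2 →L[ℂ] Tuple H 2)) T γ := by
    rintro _ ⟨x, rfl⟩ h1
    show ‖T * π x - π x * T‖ ≤ γ
    have hx1 : ‖(x : H →L[ℂ] H)‖ ≤ 1 := by
      refine le_trans (le_of_eq ?_) ((norm_ent_le _ 0 0).trans h1)
      congr 1
      ext v
      simp [hπ', ent_apply, diag_apply, incl_apply]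
    have hd : ‖θ x - (x : H →L[ℂ] H)‖ ≤ γ :=
      (hθ x).trans (mul_le_of_le_one_right hγ hx1)
    refine norm_le_of_sq hγ fun v => ?_
    simp only [sub_apply, ContinuousLinearMap.mul_apply, PiLp.sub_apply, Fin.sum_univ_two, hT0,
      hT1, hπ', diag_apply, Matrix.cons_val_zero, Matrix.cons_val_one]
    have b0 : ‖θ x (v 1) - (x : H →L[ℂ] H) (v 1)‖ ≤ γ * ‖v 1‖ :=
      ((θ x - (x : H →L[ℂ] H)).le_opNorm _).trans (mul_le_mul_of_nonneg_right hd (norm_nonneg _))
    have b1 : ‖(x : H →L[ℂ] H) (v 0) - θ x (v 0)‖ ≤ γ * ‖v 0‖ := by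
      rw [norm_sub_rev]
      exact ((θ x - (x : H →L[ℂ] H)).le_opNorm _).trans
        (mul_le_mul_of_nonneg_right hd (norm_nonneg _))
    nlinarith [pow_le_pow_left₀ (norm_nonneg _) b0 2, pow_le_pow_left₀ (norm_nonneg _) b1 2]
  obtain ⟨k, hk, hkn⟩ := h (Tuple H 2) π.range T γ hγ hcomm
  set w := ent k 1 0 with hw
  have hint : ∀ x : M, θ x * w = w * (x : H →L[ℂ] H) := fun x => by
    have := hk (π x) ⟨x, rfl⟩
    ext v
    have e := congrArg (fun z : Tuple H 2 => z 1) (DFunLike.congr_fun this (incl 0 v))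
    simpa [hw, hπ', ContinuousLinearMap.mul_apply, diag_apply, diag_incl, ent_apply] using e
  have hw1 : ‖w - 1‖ ≤ C * γ := by
    refine le_trans (le_of_eq ?_) ((norm_ent_le (T - k) 1 0).trans hkn)
    rw [norm_sub_rev]
    congr 1
    ext v
    simp [hw, ent_apply, hT1, incl_apply]
  have hcw : ∀ x : M, Commute (star w * w) (x : H →L[ℂ] H) := fun x => by
    have h1 : (x : H →L[ℂ] H) * star w = star w * θ x := by
      have := congrArg star (hint (star x))
      simpa [star_mul, map_star] using this.symm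
    show star w * w * (x : H →L[ℂ] H) = (x : H →L[ℂ] H) * (star w * w)
    rw [mul_assoc, ← hint x, ← mul_assoc, ← h1, mul_assoc]
  rcases le_or_gt (C * γ) (1 / 8) with h8 | h8
  · obtain ⟨u, hu, hu1, hue⟩ := polar_near (δ := C * γ) (by linarith) hw1
    exact ⟨u, hu, by linarith, fun x => hue _ _ (hint x) (hcw x)⟩
  · linarith

end Vale.Agent.P096
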